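import Crest.Agent.N41.Local.Chess
import Crest.Agent.N41.Defs

/-!
# Row 41, module B1: the chessboard norm (multilinearity, subadditivity, marginals, averages)
and `ChessStmt`
-/

set_option autoImplicit false
open Finset
open scoped BigOperators

namespace Crest.Agent.N41.Local

section general
variable {D : ℕ} {V : Type} [Fintype V]

/-- multilinear expansion -/
lemma Lam_sum {J : Type} [DecidableEq J] (n : (Om D → V) → ℝ) (s : Om D → Finset J)
    (h : Om D → J → V → ℝ) :
    Lam n (fun c v => ∑ j ∈ s c, h c j v) =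
      ∑ φ ∈ Fintype.piFinset s, Lam n fun c => h c (φ c) := by
  unfold Lam
  simp only [prod_univ_sum, mul_sum]
  exact sum_comm

lemma Lam_const_mul (n : (Om D → V) → ℝ) (a : Om D → ℝ) (g : Om D → V → ℝ) :
    Lam n (fun c v => a c * g c v) = (∏ c, a c) * Lam n g := by
  unfold Lam
  rw [mul_sum]
  exact sum_congr rfl fun x _ => by rw [prod_mul_distrib]; ring

/-- linearity in one slot -/
lemma Lam_update_add (n : (Om D → V) → ℝ) (g : Om D → V → ℝ) (w : Om D) (u v : V → ℝ) :
    Lam n (Function.update g w fun t => u t + v t) =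
      Lam n (Function.update g w u) + Lam n (Function.update g w v) := by
  unfold Lam
  rw [← sum_add_distrib]
  refine sum_congr rfl fun x _ => ?_
  have key : ∀ z : V → ℝ, ∏ c, Function.update g w z c (x c) =
      z (x w) * ∏ c ∈ univ.erase w, g c (x c) := fun z => by
    rw [← mul_prod_erase univ _ (mem_univ w), Function.update_self]
    congr 1
    exact prod_congr rfl fun c hc => by rw [Function.update_of_ne (ne_of_mem_erase hc)]
  rw [key, key, key]; ring

/-- splitting off one slot -/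
lemma Lam_eq_slot (n : (Om D → V) → ℝ) (g : Om D → V → ℝ) (w : Om D) :
    Lam n g = ∑ x, n x * (g w (x w) * ∏ c ∈ univ.erase w, g c (x c)) :=
  sum_congr rfl fun x _ => by rw [mul_prod_erase univ (fun c => g c (x c)) (mem_univ w)]

/-- chessboard estimate after multilinear expansion -/
theorem RP.abs_Lam_sum_le {J : Type} {n : (Om D → V) → ℝ} (hn : RP n) (hD : 0 < D)
    (s : Om D → Finset J) (a : Om D → J → ℝ) (h : Om D → J → V → ℝ) (B : Om D → J → ℝ)
    (hB : ∀ c, ∀ j ∈ s c, 0 ≤ B c j)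
    (hh : ∀ c, ∀ j ∈ s c, (Lam n fun _ => h c j) ≤ B c j ^ 6 ^ D) :
    |Lam n fun c v => ∑ j ∈ s c, a c j * h c j v| ≤ ∏ c, ∑ j ∈ s c, |a c j| * B c j := by
  classical
  rw [Lam_sum n s fun c j v => a c j * h c j v, prod_univ_sum]
  refine (abs_sum_le_sum_abs _ _).trans (sum_le_sum fun φ hφ => ?_)
  have hφ' := Fintype.mem_piFinset.1 hφ
  rw [Lam_const_mul n (fun c => a c (φ c)) fun c => h c (φ c), abs_mul, abs_prod,
    prod_mul_distrib]
  refine mul_le_mul_of_nonneg_left ?_ (prod_nonneg fun c _ => abs_nonneg _)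
  refine hn.chess_le _ _ (fun c => hB c _ (hφ' c)) fun c => ?_
  rw [abs_of_nonneg (hn.Lam_const_nonneg hD _)]
  exact hh c _ (hφ' c)

/-- subadditivity of the chessboard norm, bound form -/
theorem RP.Lam_sum_le {J : Type} {n : (Om D → V) → ℝ} (hn : RP n) (hD : 0 < D)
    (s : Finset J) (a : J → ℝ) (h : J → V → ℝ) (B : J → ℝ) (hB : ∀ j ∈ s, 0 ≤ B j)
    (hh : ∀ j ∈ s, (Lam n fun _ => h j) ≤ B j ^ 6 ^ D) :
    (Lam n fun _ v => ∑ j ∈ s, a j * h j v) ≤ (∑ j ∈ s, |a j| * B j) ^ 6 ^ D := by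
  have := hn.abs_Lam_sum_le hD (fun _ => s) (fun _ => a) (fun _ => h) (fun _ => B)
    (fun _ => hB) fun _ => hh
  rw [prod_const, card_univ, card_Om] at this
  exact (le_abs_self _).trans this






end general

section group
variable {D : ℕ} {V : Type} [Fintype V] [AddCommGroup V]

lemma sum_shift {n : (Om D → V) → ℝ} (ht : ∀ (x : Om D → V) (t : V), n (fun c => x c + t) = n x)
    (F : (Om D → V) → ℝ) (t : V) : ∑ x, n x * F (fun c => x c + t) = ∑ x, n x * F x :=
  Fintype.sum_equiv (Equiv.addRight fun _ => t) _ _ fun x => by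
    rw [← ht x t]; rfl

lemma Lam_shift {n : (Om D → V) → ℝ} (ht : ∀ (x : Om D → V) (t : V), n (fun c => x c + t) = n x)
    (g : Om D → V → ℝ) (t : V) : Lam n (fun c v => g c (v + t)) = Lam n g :=
  sum_shift ht (fun x => ∏ c, g c (x c)) t

/-- one-point marginals of a translation invariant weight are uniform -/
lemma marginal {n : (Om D → V) → ℝ} (ht : ∀ (x : Om D → V) (t : V), n (fun c => x c + t) = n x)
    (w : Om D) (g : V → ℝ) : ∑ x, n x * g (x w) = (∑ x, n x) * 𝔼 v, g v := by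
  have h1 : ∑ x, n x * g (x w) = 𝔼 t : V, ∑ x, n x * g (x w + t) := by
    rw [expect_congr rfl fun t _ => sum_shift ht (fun x => g (x w)) t, Fintype.expect_const]
  rw [h1, expect_sum_comm, sum_mul]
  refine sum_congr rfl fun x _ => ?_
  rw [← mul_expect]
  congr 1
  exact Fintype.expect_equiv (Equiv.addLeft (x w)) _ _ fun _ => rfl



/-- arithmetic-geometric mean bound for the functional of a probability weight -/
theorem abs_Lam_le_of_moment {n : (Om D → V) → ℝ} (h0 : ∀ x, 0 ≤ n x) (h1 : ∑ x, n x = 1)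
    (ht : ∀ (x : Om D → V) (t : V), n (fun c => x c + t) = n x) (g : Om D → V → ℝ) {B : ℝ}
    (hg : ∀ c, 𝔼 v, |g c v| ^ 6 ^ D ≤ B) : |Lam n g| ≤ B := by
  have hr : (0 : ℝ) < (6 ^ D : ℕ) := by positivity
  have amgm : ∀ x : Om D → V, |∏ c, g c (x c)| ≤ ∑ c, (1 / (6 ^ D : ℕ) : ℝ) * |g c (x c)| ^ 6 ^ D := by
    intro x
    have := Real.geom_mean_le_arith_mean_weighted univ (fun _ : Om D => (1 / (6 ^ D : ℕ) : ℝ))
      (fun c => |g c (x c)| ^ 6 ^ D) (fun _ _ => by positivity)
      (by rw [sum_const, card_univ, card_Om, nsmul_eq_mul]; field_simp) fun _ _ => by positivity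
    refine le_trans (le_of_eq ?_) this
    rw [abs_prod]
    refine prod_congr rfl fun c _ => ?_
    rw [one_div, Real.pow_rpow_inv_natCast (abs_nonneg _) (by positivity)]
  calc |Lam n g| ≤ ∑ x, n x * ∑ c, (1 / (6 ^ D : ℕ) : ℝ) * |g c (x c)| ^ 6 ^ D := by
        refine (abs_sum_le_sum_abs _ _).trans (sum_le_sum fun x _ => ?_)
        rw [abs_mul, abs_of_nonneg (h0 x)]
        exact mul_le_mul_of_nonneg_left (amgm x) (h0 x)
    _ = ∑ c : Om D, (1 / (6 ^ D : ℕ) : ℝ) * 𝔼 v, |g c v| ^ 6 ^ D := by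
        simp only [mul_sum]
        rw [sum_comm]
        refine sum_congr rfl fun c _ => ?_
        have := marginal ht c fun v => |g c v| ^ 6 ^ D
        rw [h1, one_mul] at this
        rw [← this, mul_sum]
        exact sum_congr rfl fun x _ => by ring
    _ ≤ ∑ _c : Om D, (1 / (6 ^ D : ℕ) : ℝ) * B :=
        sum_le_sum fun c _ => mul_le_mul_of_nonneg_left (hg c) (by positivity)
    _ = B := by rw [sum_const, card_univ, card_Om, nsmul_eq_mul]; field_simp

end group

section product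
variable {D : ℕ} {ι : Type} [Fintype ι] [DecidableEq ι] {V : ι → Type} [∀ i, AddCommGroup (V i)]
  [∀ i, Fintype (V i)] {ν : ∀ i, (Om D → V i) → ℝ} {ρ : ι → ℝ}

lemma tens_rp (h : ∀ i, Law (ν i) (ρ i)) : RP (tens ν) := RP.tens fun i => (h i).rp

omit [DecidableEq ι] in
lemma tens_nonneg (h : ∀ i, Law (ν i) (ρ i)) (x : Om D → ∀ i, V i) : 0 ≤ tens ν x :=
  prod_nonneg fun i _ => (h i).nonneg _

lemma tens_sum_one (h : ∀ i, Law (ν i) (ρ i)) : ∑ x, tens ν x = 1 := by
  unfold tens
  rw [sum_tens_prod ν]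
  exact prod_eq_one fun i _ => (h i).sum_one

omit [DecidableEq ι] in
lemma tens_shift (h : ∀ i, Law (ν i) (ρ i)) (x : Om D → ∀ i, V i) (t : ∀ i, V i) :
    tens ν (fun c => x c + t) = tens ν x :=
  prod_congr rfl fun i _ => (h i).transl (fun c => x c i) (t i)



/-- partial averages do not increase the chessboard norm (bound form) -/
theorem Lam_avg_le_pow (h : ∀ i, Law (ν i) (ρ i)) (hD : 0 < D) (S : Finset ι)
    {g : (∀ i, V i) → ℝ} {B : ℝ} (hB : 0 ≤ B) (hg : (Lam (tens ν) fun _ => g) ≤ B ^ 6 ^ D) :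
    (Lam (tens ν) fun _ => ES.avg S g) ≤ B ^ 6 ^ D := by
  have h2 := (tens_rp h).Lam_sum_le hD (univ : Finset (∀ i, V i))
    (fun _ => 1 / (Fintype.card (∀ i, V i) : ℝ))
    (fun t v => g (v + S.piecewise t 0)) (fun _ => B) (fun _ _ => hB) fun t _ => by
      rw [Lam_shift (tens_shift h) (fun _ => g) _]; exact hg
  have hc : (0 : ℝ) < Fintype.card (∀ i, V i) := by exact_mod_cast Fintype.card_pos
  have h3 : (fun (_ : Om D) (v : ∀ i, V i) =>
      ∑ t, 1 / (Fintype.card (∀ i, V i) : ℝ) * g (v + S.piecewise t 0)) = fun _ => ES.avg S g := by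
    funext c v
    rw [← mul_sum, ES.avg, Fintype.expect_eq_sum_div_card,
      Fintype.sum_equiv (Equiv.addLeft v) (fun t => g (v + S.piecewise t 0))
        (fun y => g (S.piecewise y v)) fun t => ?_]
    · ring
    · congr 1
      funext i
      by_cases hi : i ∈ S <;> simp [hi]
  have h4 : ∑ _t : ∀ i, V i, |1 / (Fintype.card (∀ i, V i) : ℝ)| * B = B := by
    rw [sum_const, card_univ, nsmul_eq_mul, abs_of_pos (by positivity)]; field_simp
  rwa [h3, h4] at h2

/-- partial averages do not increase the chessboard norm -/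
theorem Lam_avg_le (h : ∀ i, Law (ν i) (ρ i)) (hD : 0 < D) (S : Finset ι) (g : (∀ i, V i) → ℝ) :
    (Lam (tens ν) fun _ => ES.avg S g) ≤ Lam (tens ν) fun _ => g := by
  rw [← nrm_pow (tens_rp h) hD g]
  exact Lam_avg_le_pow h hD S (nrm_nonneg (tens_rp h) hD g) (nrm_pow (tens_rp h) hD g).ge



/-- `|Λ(g)| ≤ max_c E |g_c|^r` for the product law -/
theorem tens_abs_Lam_le (h : ∀ i, Law (ν i) (ρ i)) (g : Om D → (∀ i, V i) → ℝ) {B : ℝ}
    (hg : ∀ c, 𝔼 v, |g c v| ^ 6 ^ D ≤ B) : |Lam (tens ν) g| ≤ B :=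
  abs_Lam_le_of_moment (tens_nonneg h) (tens_sum_one h) (tens_shift h) g hg

end product

/-- **Module B1**. -/
theorem chess : ChessStmt := by
  intro D ι _ _ V _ _ ν ρ hD h
  refine ⟨fun g => (tens_rp h).Lam_const_nonneg hD g, fun g B hB hg => ?_⟩
  refine (tens_rp h).chess_pos g B hB fun c => ?_
  rw [abs_of_nonneg ((tens_rp h).Lam_const_nonneg hD _)]
  exact hg c

end Crest.Agent.N41.Local
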